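import Vale.Agent.P113.H437.TwoStack
import Vale.Agent.P113.H55.Chain

/-!
# P113, part 5: universality

`Part5` from the chain REPred → `TM0` (part 5B, helper55) and the junk-insertion two-stack
machine (part 5C, helper437).
-/

namespace Vale.Agent.P113

open Turing StateTransition

/-- **Part 5**: every r.e. predicate is the halting predicate of a two-stack machine. -/
theorem part5 : Part5 := by
  intro p hp
  obtain ⟨Γ, Λ, iΓ, iΛ, fΓ, fΛ, M, a, b, hM⟩ := TS.exists_tm0 p hp
  let _ : Fintype Γ := Fintype.ofFinite Γ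
  let _ : Fintype Λ := Fintype.ofFinite Λ
  obtain ⟨T, g, y₀, hg, hy, hT⟩ := H437.exists_TSM M
  refine ⟨T, g a, g b, y₀, hg _, hg _, hy, fun k => ?_⟩
  have h := hT (a :: List.replicate k b)
  rw [List.map_cons, List.map_replicate] at h
  rw [h, hM k]
  rfl

end Vale.Agent.P113
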