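import Vale.Agent.P113.H437.TwoStack

/-!
# P113, part 5C: `Part5` from the `TM0` form of universality
-/

namespace Vale.Agent.P113

open Turing StateTransition

/-- Target of part 5B: every r.e. predicate is the halting predicate of a finite `TM0` machine
started on the tapes `c₀ c₁ ⋯ c₁`. -/
def Part5B : Prop :=
  ∀ p : ℕ → Prop, REPred p →
    ∃ (Γ Λ : Type) (_ : Inhabited Γ) (_ : Inhabited Λ) (_ : Fintype Γ)
      (M : TM0.Machine Γ Λ) (S : Finset Λ) (c₀ c₁ : Γ),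
      TM0.Supports M (S : Set Λ) ∧
        ∀ k : ℕ, (eval (TM0.step M) (TM0.init (c₀ :: List.replicate k c₁))).Dom ↔ p k

theorem part5_of_part5B (h : Part5B) : Part5 := by
  intro p hp
  obtain ⟨Γ, Λ, iΓ, iΛ, fΓ, M, S, c₀, c₁, hS, hM⟩ := h p hp
  obtain ⟨T, g, y₀, hg, hy, hT⟩ := H437.exists_TSM_of_supports M S hS
  refine ⟨T, g c₀, g c₁, y₀, hg _, hg _, hy, fun k => ?_⟩
  rw [← hM k, ← hT]
  simp

end Vale.Agent.P113
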