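import Vale.Agent.P113.Iface

/-!
# P113, part 5C: injective two-stack machines, and how they simulate a `TM0` machine

A two-stack machine looks at the two top symbols `e` (of the source stack `X`) and `j` (of the
target stack `Y`), and does one of the following (the empty stack reads as the blank symbol):

* `halt`;
* `move r`:    `X ↦ X.tail`,      `Y ↦ r :: e :: Y`;
* `turn r`:    `X ↦ Y`,           `Y ↦ r :: X`;
* `write r b`: `X ↦ b :: X.tail`, `Y ↦ r :: Y`.

The function `dec` recovers what has been done from the top symbol `r` of the new target stack.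
-/

namespace Vale.Agent.P113.H437

open Turing StateTransition

universe u v

/-- What one step of a two-stack machine does. -/
inductive Op (E : Type u) where
  | halt : Op E
  | move (r : E) : Op E
  | turn (r : E) : Op E
  | write (r b : E) : Op E

/-- What the top symbol of the new target stack tells about the step that has been made. -/
inductive Dec (E : Type u) where
  | junk : Dec E
  | move : Dec E
  | turn : Dec E
  | write (e b : E) : Dec E

/-- A two-stack machine with alphabet `E`. -/
structure TwoStack (E : Type u) where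
  /-- the blank symbol: what one reads on an empty stack -/
  blank : E
  /-- the operation, as a function of the top symbol of `X` and the top symbol of `Y` -/
  op : E → E → Op E
  /-- the decoder -/
  dec : E → Dec E
  dec_move : ∀ {e j r}, op e j = .move r → dec r = .move
  dec_turn : ∀ {e j r}, op e j = .turn r → dec r = .turn
  dec_write : ∀ {e j r b}, op e j = .write r b → dec r = .write e b

/-- One step of a two-stack machine; `none` when it halts. -/
def TwoStack.next {E : Type u} (T : TwoStack E) (c : List E × List E) :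
    Option (List E × List E) :=
  match T.op (c.1.headD T.blank) (c.2.headD T.blank) with
  | .halt => none
  | .move r => some (c.1.tail, r :: c.1.headD T.blank :: c.2)
  | .turn r => some (c.2, r :: c.1)
  | .write r b => some (b :: c.1.tail, r :: c.2)

/-! ### From a two-stack machine over a finite alphabet to a `TSM` -/

section toTSM

variable {E : Type u}

/-- The number of a symbol. -/
def num {n : ℕ} (f : E ≃ Fin n) (e : E) : ℕ := (f e : ℕ)

/-- The record pushed by an operation. -/
def Op.rec? (g : E → ℕ) : Op E → Option ℕ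
  | .halt => none
  | .move r => some (g r)
  | .turn r => some (g r)
  | .write r _ => some (g r)

/-- The kind announced by a decoded record. -/
def Dec.kind (g : E → ℕ) : Dec E → Kind
  | .junk => .push
  | .move => .push
  | .turn => .turn
  | .write e b => .write (g e) (g b)

/-- A two-stack machine over a finite alphabet, as a `TSM`. -/
def TwoStack.toTSM (T : TwoStack E) {n : ℕ} (hn : 0 < n) (f : E ≃ Fin n) : TSM where
  n := n
  δ e y := if h : e < n ∧ y < n then
    (T.op (f.symm ⟨e, h.1⟩) (f.symm ⟨y, h.2⟩)).rec? (num f) else none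
  kind j := if h : j < n then (T.dec (f.symm ⟨j, h⟩)).kind (num f) else .push
  n_pos := hn
  δ_lt := by
    intro e y j h
    split_ifs at h with hlt
    rcases h' : T.op (f.symm ⟨e, hlt.1⟩) (f.symm ⟨y, hlt.2⟩) with _ | r | r | ⟨r, b⟩ <;>
      rw [h'] at h <;>
      simp only [Op.rec?, Option.some.injEq, reduceCtorEq] at h <;> subst h <;> exact (f r).2
  write_lt := by
    intro j e b h
    split_ifs at h with hlt
    rcases h' : T.dec (f.symm ⟨j, hlt⟩) with _ | _ | _ | ⟨e', b'⟩ <;> rw [h'] at h <;>
      simp only [Dec.kind, Kind.write.injEq, reduceCtorEq] at h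
    rw [← h.2]
    exact (f b').2
  write_eq := by
    intro e y j e' b h hk
    split_ifs at h with hlt
    rcases h' : T.op (f.symm ⟨e, hlt.1⟩) (f.symm ⟨y, hlt.2⟩) with _ | r | r | ⟨r, b'⟩ <;>
      rw [h'] at h <;>
      simp only [Op.rec?, Option.some.injEq, reduceCtorEq] at h <;> subst h
    · have hd := T.dec_move h'
      simp [num, hd, Dec.kind] at hk
    · have hd := T.dec_turn h'
      simp [num, hd, Dec.kind] at hk
    · have hd := T.dec_write h'
      simp [num, hd, Dec.kind] at hk
      exact hk.1.symm

theorem headI_map_num {n : ℕ} (f : E ≃ Fin n) (b : E) (hb : num f b = 0) (X : List E) :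
    (X.map (num f)).headI = num f (X.headD b) := by
  cases X with
  | nil => simp [hb]
  | cons a X => rfl

theorem TwoStack.step_toTSM (T : TwoStack E) {n : ℕ} (hn : 0 < n) (f : E ≃ Fin n)
    (hb : num f T.blank = 0) (c : List E × List E) :
    (T.toTSM hn f).step (c.1.map (num f), c.2.map (num f)) =
      (T.next c).map fun c' => (c'.1.map (num f), c'.2.map (num f)) := by
  obtain ⟨X, Y⟩ := c
  have hlt : ∀ e : E, num f e < n := fun e => (f e).2
  have hsymm : ∀ (e : E) (h : num f e < n), f.symm ⟨num f e, h⟩ = e := by
    intro e h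
    simp [num]
  simp only [TSM.step, TwoStack.next, headI_map_num f T.blank hb]
  have hδ : (T.toTSM hn f).δ (num f (X.headD T.blank)) (num f (Y.headD T.blank)) =
      (T.op (X.headD T.blank) (Y.headD T.blank)).rec? (num f) := by
    simp only [TwoStack.toTSM]
    rw [dif_pos ⟨hlt _, hlt _⟩, hsymm, hsymm]
  have hkind : ∀ r, (T.toTSM hn f).kind (num f r) = (T.dec r).kind (num f) := by
    intro r
    simp only [TwoStack.toTSM]
    rw [dif_pos (hlt _), hsymm]
  rw [hδ]
  rcases h' : T.op (X.headD T.blank) (Y.headD T.blank) with _ | r | r | ⟨r, b⟩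
  · simp [Op.rec?]
  · simp only [Op.rec?, hkind, T.dec_move h', Dec.kind, Option.map_some, List.map_tail,
      List.map_cons]
  · simp only [Op.rec?, hkind, T.dec_turn h', Dec.kind, Option.map_some, List.map_cons]
  · simp only [Op.rec?, hkind, T.dec_write h', Dec.kind, Option.map_some, List.map_tail,
      List.map_cons]

theorem TwoStack.eval_toTSM (T : TwoStack E) {n : ℕ} (hn : 0 < n) (f : E ≃ Fin n)
    (hb : num f T.blank = 0) (X Y : List E) :
    (eval (T.toTSM hn f).step (X.map (num f), Y.map (num f))).Dom ↔
      (eval T.next (X, Y)).Dom := by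
  refine tr_eval_dom (tr := fun a b => (a.1.map (num f), a.2.map (num f)) = b) ?_ rfl
  intro a b hab
  subst hab
  have h := T.step_toTSM hn f hb a
  rcases e : T.next a with _ | c'
  · rw [e] at h
    exact h
  · rw [e] at h
    exact ⟨_, rfl, Relation.TransGen.single h⟩

/-- An equivalence with `Fin n` sending a given element to `0`. -/
theorem exists_equiv [Fintype E] (b : E) :
    ∃ (n : ℕ) (_ : 0 < n) (f : E ≃ Fin n), num f b = 0 := by
  classical
  let f₀ : E ≃ Fin (Fintype.card E) := Fintype.equivFin E
  have hn : 0 < Fintype.card E := Fintype.card_pos_iff.2 ⟨b⟩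
  refine ⟨Fintype.card E, hn, f₀.trans (Equiv.swap (f₀ b) ⟨0, hn⟩), ?_⟩
  simp [num]

end toTSM

/-! ### The two-stack machine of a `TM0` machine -/

section sim

variable {Γ : Type u} {Λ : Type v} [Inhabited Γ] [Inhabited Λ]

/-- Junk symbols: a record of a state, a direction (`true` is right) and of the symbol read
(`none` when a junk symbol was skipped). -/
abbrev Junk (Γ : Type u) (Λ : Type v) := (Λ × Bool) × Option Γ

/-- The alphabet of the two-stack machine: tape symbols and junk symbols. -/
abbrev Sym (Γ : Type u) (Λ : Type v) := Γ ⊕ Junk Γ Λ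

/-- A direction as a Boolean. -/
def dirB : Dir → Bool
  | Dir.left => false
  | Dir.right => true

/-- The state and the direction after the step recorded by a junk symbol. -/
def nxt (M : TM0.Machine Γ Λ) : Junk Γ Λ → Λ × Bool
  | (s, none) => s
  | ((q, d), some a) => match M q a with
    | none => (q, d)
    | some (q', .move D) => (q', dirB D)
    | some (q', .write _) => (q', d)

/-- The operation of the two-stack machine. -/
def opM (M : TM0.Machine Γ Λ) : Sym Γ Λ → Sym Γ Λ → Op (Sym Γ Λ)
  | _, .inl _ => .halt
  | .inr _, .inr j => .move (.inr (nxt M j, none))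
  | .inl a, .inr j => match M (nxt M j).1 a with
    | none => .halt
    | some (_, .move D) =>
      if dirB D = (nxt M j).2 then .move (.inr (nxt M j, some a)) else .turn (.inr (nxt M j, some a))
    | some (_, .write b) => .write (.inr (nxt M j, some a)) (.inl b)

/-- The decoder of the two-stack machine. -/
def decM (M : TM0.Machine Γ Λ) : Sym Γ Λ → Dec (Sym Γ Λ)
  | .inl _ => .junk
  | .inr (_, none) => .move
  | .inr ((q, d), some a) => match M q a with
    | none => .junk
    | some (_, .move D) => if dirB D = d then .move else .turn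
    | some (_, .write b) => .write (.inl a) (.inl b)

/-- The two-stack machine of a `TM0` machine. -/
def twoStack (M : TM0.Machine Γ Λ) : TwoStack (Sym Γ Λ) where
  blank := .inl default
  op := opM M
  dec := decM M
  dec_move := by
    rintro (a | j') (a' | j) r h
    · simp [opM] at h
    · simp only [opM] at h
      rcases h' : M (nxt M j).1 a with _ | ⟨q', D | b⟩ <;> simp only [h', reduceCtorEq] at h
      by_cases hd : dirB D = (nxt M j).2
      · rw [if_pos hd] at h
        injection h with h
        subst h
        rcases hj : nxt M j with ⟨q, d⟩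
        rw [hj] at h' hd
        simp [decM, h', hd]
      · rw [if_neg hd] at h
        simp at h
    · simp [opM] at h
    · simp only [opM] at h
      injection h with h
      subst h
      simp [decM]
  dec_turn := by
    rintro (a | j') (a' | j) r h
    · simp [opM] at h
    · simp only [opM] at h
      rcases h' : M (nxt M j).1 a with _ | ⟨q', D | b⟩ <;> simp only [h', reduceCtorEq] at h
      by_cases hd : dirB D = (nxt M j).2
      · rw [if_pos hd] at h
        simp at h
      · rw [if_neg hd] at h
        injection h with h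
        subst h
        rcases hj : nxt M j with ⟨q, d⟩
        rw [hj] at h' hd
        simp [decM, h', hd]
    · simp [opM] at h
    · simp [opM] at h
  dec_write := by
    rintro (a | j') (a' | j) r b h
    · simp [opM] at h
    · simp only [opM] at h
      rcases h' : M (nxt M j).1 a with _ | ⟨q', D | b'⟩ <;> simp only [h', reduceCtorEq] at h
      · by_cases hd : dirB D = (nxt M j).2
        · rw [if_pos hd] at h
          simp at h
        · rw [if_neg hd] at h
          simp at h
      · injection h with h1 h2
        subst h1 h2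
        rcases hj : nxt M j with ⟨q, d⟩
        rw [hj] at h'
        simp [decM, h']
    · simp [opM] at h
    · simp [opM] at h

/-- The tape symbols of a stack. -/
def tapeOf (X : List (Sym Γ Λ)) : List Γ := X.filterMap Sum.getLeft?

omit [Inhabited Γ] [Inhabited Λ] in
@[simp] theorem tapeOf_nil : tapeOf ([] : List (Sym Γ Λ)) = [] := rfl

omit [Inhabited Γ] [Inhabited Λ] in
@[simp] theorem tapeOf_inl (a : Γ) (X : List (Sym Γ Λ)) :
    tapeOf (.inl a :: X) = a :: tapeOf X := rfl

omit [Inhabited Γ] [Inhabited Λ] in
@[simp] theorem tapeOf_inr (j : Junk Γ Λ) (X : List (Sym Γ Λ)) :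
    tapeOf (.inr j :: X) = tapeOf X := rfl

/-- The part of a tape on one side of the head. -/
def side (T : Tape Γ) : Bool → ListBlank Γ
  | true => T.right
  | false => T.left

/-- The relation between configurations that holds before the junk on top of `X` is skipped. -/
structure Rel₀ (M : TM0.Machine Γ Λ) (c : TM0.Cfg Γ Λ) (p : List (Sym Γ Λ) × List (Sym Γ Λ)) :
    Prop where
  ex : ∃ j Y', p.2 = .inr j :: Y' ∧ (nxt M j).1 = c.q ∧
    ListBlank.mk (tapeOf p.1) = (side c.Tape (nxt M j).2).cons c.Tape.head ∧
    ListBlank.mk (tapeOf p.2) = side c.Tape (!(nxt M j).2)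

/-- The top of a stack is not junk. -/
def Clean (X : List (Sym Γ Λ)) : Prop := ∀ j X', X ≠ .inr j :: X'

/-- The simulation relation. -/
def Rel (M : TM0.Machine Γ Λ) (c : TM0.Cfg Γ Λ) (p : List (Sym Γ Λ) × List (Sym Γ Λ)) : Prop :=
  Rel₀ M c p ∧ Clean p.1

/-- Skipping junk. -/
theorem skip (M : TM0.Machine Γ Λ) (c : TM0.Cfg Γ Λ) :
    ∀ (X Y : List (Sym Γ Λ)), Rel₀ M c (X, Y) →
      ∃ p, Rel M c p ∧ Reaches (twoStack M).next (X, Y) p
  | [], Y, h => ⟨([], Y), ⟨h, by intro j X'; simp⟩, Relation.ReflTransGen.refl⟩
  | .inl a :: X, Y, h => ⟨(.inl a :: X, Y), ⟨h, by intro j X'; simp⟩, Relation.ReflTransGen.refl⟩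
  | .inr j' :: X, Y, h => by
    obtain ⟨j, Y', hY, hq, hX, hY'⟩ := h.ex
    simp only at hY hX hY'
    subst hY
    have hstep : (X, (.inr (nxt M j, none) : Sym Γ Λ) :: .inr j' :: .inr j :: Y') ∈
        (twoStack M).next (.inr j' :: X, .inr j :: Y') := by
      simp [TwoStack.next, twoStack, opM]
    have h0 : Rel₀ M c (X, (.inr (nxt M j, none) : Sym Γ Λ) :: .inr j' :: .inr j :: Y') := by
      have hn : nxt M (nxt M j, none) = nxt M j := rfl
      refine ⟨(nxt M j, none), _, rfl, hq, ?_, ?_⟩
      · rw [hn]
        exact hX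
      · rw [hn]
        exact hY'
    obtain ⟨p, hp, hr⟩ := skip M c X _ h0
    exact ⟨p, hp, hr.head hstep⟩

theorem listBlank_cons_inj {a b : Γ} {L K : ListBlank Γ} (h : L.cons a = K.cons b) :
    a = b ∧ L = K := by
  constructor
  · have := congrArg ListBlank.head h
    simpa using this
  · have := congrArg ListBlank.tail h
    simpa using this

theorem mk_cons (a : Γ) (l : List Γ) : ListBlank.mk (a :: l) = (ListBlank.mk l).cons a := rfl

theorem mk_tail (l : List Γ) : ListBlank.mk l.tail = (ListBlank.mk l).tail := rfl

theorem respects (M : TM0.Machine Γ Λ) :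
    Respects (TM0.step M) (twoStack M).next (Rel M) := by
  rintro ⟨q, T⟩ ⟨X, Y⟩ ⟨⟨j, Y', hY, hq, hX, hY'⟩, hclean⟩
  simp only at hY hq hX hY' hclean
  subst hY
  -- the top symbol of `X` is `inl T.head`
  have htop : X.headD (.inl default) = .inl T.head ∧
      ListBlank.mk (tapeOf X.tail) = side T (nxt M j).2 := by
    rcases X with _ | ⟨a | j', X⟩
    · simp only [tapeOf_nil] at hX
      have h1 : ListBlank.mk ([] : List Γ) = (ListBlank.mk []).cons default :=
        (ListBlank.cons_head_tail (ListBlank.mk ([] : List Γ))).symm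
      rw [h1] at hX
      obtain ⟨h2, h3⟩ := listBlank_cons_inj hX
      refine ⟨by simp [← h2], ?_⟩
      simpa using h3
    · simp only [tapeOf_inl, mk_cons] at hX
      obtain ⟨h2, h3⟩ := listBlank_cons_inj hX
      exact ⟨by simp [← h2], by simpa using h3⟩
    · exact absurd rfl (hclean j' X)
  obtain ⟨htop, htail⟩ := htop
  have hnext : (twoStack M).next (X, .inr j :: Y') =
      match opM M (.inl T.head) (.inr j) with
      | .halt => none
      | .move r => some (X.tail, r :: .inl T.head :: .inr j :: Y')
      | .turn r => some (.inr j :: Y', r :: X)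
      | .write r b => some (b :: X.tail, r :: .inr j :: Y') := by
    simp only [TwoStack.next, twoStack, htop, List.headD_cons]
    rcases opM M (.inl T.head) (.inr j) with _ | r | r | ⟨r, b⟩ <;> rfl
  rcases hM : M q T.head with _ | ⟨q', D | b⟩
  · -- halting
    simp only [TM0.step, hM, Option.map_none]
    rw [hnext]
    simp only [opM, hq, hM]
  · -- move
    simp only [TM0.step, hM, Option.map_some]
    have hnj : nxt M (nxt M j, some T.head) = (q', dirB D) := by
      rcases hj : nxt M j with ⟨q₀, d⟩
      rw [hj] at hq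
      simp only at hq
      subst hq
      simp [nxt, hM]
    have hT : (T.move D).head = (side T (dirB D)).head ∧
        side (T.move D) (dirB D) = (side T (dirB D)).tail ∧
        side (T.move D) (!(dirB D)) = (side T (!(dirB D))).cons T.head := by
      cases D <;> simp [Tape.move, side, dirB]
    by_cases hd : dirB D = (nxt M j).2
    · rw [show opM M (.inl T.head) (.inr j) = .move (.inr (nxt M j, some T.head)) by
        simp [opM, hq, hM, hd]] at hnext
      have h0 : Rel₀ M ⟨q', T.move D⟩
          (X.tail, (.inr (nxt M j, some T.head) : Sym Γ Λ) :: .inl T.head :: .inr j :: Y') := by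
        refine ⟨(nxt M j, some T.head), _, rfl, ?_, ?_, ?_⟩
        · rw [hnj]
        · simp only [hnj]
          rw [htail, ← hd, hT.1, hT.2.1]
          exact (ListBlank.cons_head_tail _).symm
        · simp only [hnj, tapeOf_inr, tapeOf_inl, mk_cons]
          simp only [tapeOf_inr] at hY'
          rw [hY', ← hd, hT.2.2]
      obtain ⟨p, hp, hr⟩ := skip M _ _ _ h0
      exact ⟨p, hp, Relation.TransGen.head' hnext hr⟩
    · have hd' : (nxt M j).2 = !(dirB D) := by
        revert hd
        cases dirB D <;> cases (nxt M j).2 <;> simp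
      rw [show opM M (.inl T.head) (.inr j) = .turn (.inr (nxt M j, some T.head)) by
        simp [opM, hq, hM, hd]] at hnext
      have h0 : Rel₀ M ⟨q', T.move D⟩
          (.inr j :: Y', (.inr (nxt M j, some T.head) : Sym Γ Λ) :: X) := by
        refine ⟨(nxt M j, some T.head), _, rfl, ?_, ?_, ?_⟩
        · rw [hnj]
        · simp only [hnj]
          rw [hY', hd', Bool.not_not, hT.1, hT.2.1]
          exact (ListBlank.cons_head_tail _).symm
        · simp only [hnj, tapeOf_inr]
          rw [hX, hd', hT.2.2]
      obtain ⟨p, hp, hr⟩ := skip M _ _ _ h0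
      exact ⟨p, hp, Relation.TransGen.head' hnext hr⟩
  · -- write
    simp only [TM0.step, hM, Option.map_some]
    have hnj : nxt M (nxt M j, some T.head) = (q', (nxt M j).2) := by
      rcases hj : nxt M j with ⟨q₀, d⟩
      rw [hj] at hq
      simp only at hq
      subst hq
      simp [nxt, hM]
    have hT : (T.write b).head = b ∧ ∀ d, side (T.write b) d = side T d := by
      refine ⟨rfl, ?_⟩
      intro d
      cases d <;> rfl
    rw [show opM M (.inl T.head) (.inr j) = .write (.inr (nxt M j, some T.head)) (.inl b) by
      simp [opM, hq, hM]] at hnext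
    have h0 : Rel₀ M ⟨q', T.write b⟩
        (.inl b :: X.tail, (.inr (nxt M j, some T.head) : Sym Γ Λ) :: .inr j :: Y') := by
      refine ⟨(nxt M j, some T.head), _, rfl, ?_, ?_, ?_⟩
      · rw [hnj]
      · simp only [hnj, tapeOf_inl, mk_cons]
        rw [htail, hT.1, hT.2]
      · simp only [hnj, tapeOf_inr]
        simp only [tapeOf_inr] at hY'
        rw [hY', hT.2]
    obtain ⟨p, hp, hr⟩ := skip M _ _ _ h0
    exact ⟨p, hp, Relation.TransGen.head' hnext hr⟩

/-- The two-stack machine halts iff the `TM0` machine does. -/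
theorem eval_twoStack (M : TM0.Machine Γ Λ) (L : List Γ) :
    (eval (twoStack M).next (L.map .inl, [.inr ((default, true), none)])).Dom ↔
      (eval (TM0.step M) (TM0.init L)).Dom := by
  refine tr_eval_dom (respects M) ⟨⟨((default, true), none), [], rfl, rfl, ?_, ?_⟩, ?_⟩
  · have : tapeOf (L.map .inl : List (Sym Γ Λ)) = L := by
      induction L with
      | nil => rfl
      | cons a L ih => simp [ih]
    simp only [this, nxt, TM0.init, Tape.mk₁, Tape.mk₂, Tape.mk', side]
    exact (ListBlank.cons_head_tail _).symm
  · simp only [nxt, TM0.init, Tape.mk₁, Tape.mk₂, Tape.mk', side, tapeOf_inr]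
    rfl
  · intro j X'
    cases L <;> simp

/-- **Part 5C**: a `TM0` machine with finitely many states over a finite alphabet is simulated by
a `TSM`. -/
theorem exists_TSM [Fintype Γ] [Fintype Λ] (M : TM0.Machine Γ Λ) :
    ∃ (T : TSM) (g : Γ → ℕ) (y₀ : ℕ), (∀ a, g a < T.n) ∧ y₀ < T.n ∧
      ∀ L : List Γ, (eval T.step (L.map g, [y₀])).Dom ↔ (eval (TM0.step M) (TM0.init L)).Dom := by
  obtain ⟨n, hn, f, hb⟩ := exists_equiv ((twoStack M).blank)
  refine ⟨(twoStack M).toTSM hn f, fun a => num f (.inl a),
    num f (.inr ((default, true), none)), fun a => (f _).2, (f _).2, fun L => ?_⟩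
  rw [← eval_twoStack M L, ← TwoStack.eval_toTSM (twoStack M) hn f hb]
  simp [List.map_map, Function.comp_def]

end sim

/-! ### Restriction of a `TM0` machine to a finite supporting set of states -/

/-- **Part 5C**, with a finite supporting set of states. -/
theorem exists_TSM_of_supports {Γ Λ : Type*} [Inhabited Γ] [Inhabited Λ] [Fintype Γ]
    (M : TM0.Machine Γ Λ) (S : Finset Λ) (hS : TM0.Supports M (S : Set Λ)) :
    ∃ (T : TSM) (g : Γ → ℕ) (y₀ : ℕ), (∀ a, g a < T.n) ∧ y₀ < T.n ∧
      ∀ L : List Γ, (eval T.step (L.map g, [y₀])).Dom ↔ (eval (TM0.step M) (TM0.init L)).Dom := by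
  classical
  let d : S := ⟨default, hS.1⟩
  let _ : Inhabited S := ⟨d⟩
  let g₁ : PointedMap Λ S := ⟨fun q => if h : q ∈ S then ⟨q, h⟩ else d, by
    have h : (default : Λ) ∈ S := hS.1
    rw [dif_pos h]
    rfl⟩
  let g₂ : S → Λ := Subtype.val
  let i : PointedMap Γ Γ := ⟨id, rfl⟩
  have hg : ∀ q ∈ (S : Set Λ), g₂ (g₁ q) = q := by
    intro q hq
    have hq' : q ∈ S := hq
    change ((if h : q ∈ S then (⟨q, h⟩ : S) else d : S) : Λ) = q
    rw [dif_pos hq']
  have hR := TM0.Machine.map_respects M i i g₁ g₂ hS (fun a => rfl) hg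
  obtain ⟨T, g, y₀, h1, h2, h3⟩ := exists_TSM (M.map i i g₁ g₂)
  refine ⟨T, g, y₀, h1, h2, fun L => ?_⟩
  rw [h3 L]
  refine tr_eval_dom hR ⟨hS.1, ?_⟩
  rw [TM0.map_init]
  change TM0.init (L.map id) = _
  rw [List.map_id]

end Vale.Agent.P113.H437
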